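import Vale.Agent.P248Z.Han.Main

/-!
# P248: assembly of the symmetric Mahler conjecture from its two main inputs
-/

open MeasureTheory Set

namespace Vale.Agent.P248Z.Han

open Vale.Agent.P248Z.Geo

theorem symBody_of_neg_eq {n : ℕ} {K : Set (EuclideanSpace ℝ (Fin n))} (h1 : IsCompact K)
    (h2 : Convex ℝ K) (h3 : (interior K).Nonempty) (h4 : K = -K) : SymBody K :=
  ⟨h1, h2, h3, fun x hx => by rw [h4]; simpa using hx⟩

/-- The symmetric Mahler conjecture in dimension `n`, given the analytic input and the passage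
from the contact property to Hanner polytopes. -/
theorem q1_of {n : ℕ} {lam : ℝ → ℝ} (hl : Profile lam) (hA : Input lam n)
    (hE : ∀ K : Set (EuclideanSpace ℝ (Fin n)), SymBody K →
      (∀ x ∈ polE K, ∀ v ∈ K, ContactE lam K x v) →
      (∀ x ∈ K, ∀ v ∈ polE K, ContactE lam (polE K) x v) → HLike K)
    {K : Set (EuclideanSpace ℝ (Fin n))} (hK : SymBody K) :
    ENNReal.ofReal (4 ^ n / n.factorial) ≤ volume K * volume (polE K) ∧
    (volume K * volume (polE K) = ENNReal.ofReal (4 ^ n / n.factorial) ↔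
      ∃ (H : Set (EuclideanSpace ℝ (Fin n)))
        (T : EuclideanSpace ℝ (Fin n) ≃ₗ[ℝ] EuclideanSpace ℝ (Fin n)),
        IsHanner n H ∧ K = T '' H) := by
  refine ⟨hK.le_volume_mul hl hA, fun e => ?_, ?_⟩
  · exact (hE K hK (hK.contact hl hA e.le) (hK.contact_polE hl hA e.le)).exists_equiv hK.int
  · rintro ⟨H, T, hH, rfl⟩
    exact hH.volume_mul T

end Vale.Agent.P248Z.Han
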