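import Mathlib.Analysis.InnerProductSpace.PiL2
import Mathlib.Analysis.Convex.Hull

/-!
# P248: Hanner polytopes
-/

namespace Vale.Agent.P248Z.Han

/-- The point of `ℝ^(k+l)` whose first `k` coordinates are those of `x` and whose last `l`
coordinates are those of `y`. -/
def pair {k l : ℕ} (x : EuclideanSpace ℝ (Fin k)) (y : EuclideanSpace ℝ (Fin l)) :
    EuclideanSpace ℝ (Fin (k + l)) :=
  WithLp.toLp 2 (Fin.append (fun i => x i) (fun j => y j))

/-- Hanner polytopes: segments `[-a, a]` with `a > 0`, products `H₁ × H₂`, and convex hulls of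
the union of `H₁ × {0}` and `{0} × H₂`. -/
inductive IsHanner : (n : ℕ) → Set (EuclideanSpace ℝ (Fin n)) → Prop
  | seg {a : ℝ} : 0 < a → IsHanner 1 {x | x 0 ∈ Set.Icc (-a) a}
  | prod {k l : ℕ} {H₁ : Set (EuclideanSpace ℝ (Fin k))} {H₂ : Set (EuclideanSpace ℝ (Fin l))} :
      IsHanner k H₁ → IsHanner l H₂ → IsHanner (k + l) {z | ∃ x ∈ H₁, ∃ y ∈ H₂, z = pair x y}
  | hull {k l : ℕ} {H₁ : Set (EuclideanSpace ℝ (Fin k))} {H₂ : Set (EuclideanSpace ℝ (Fin l))} :
      IsHanner k H₁ → IsHanner l H₂ →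
      IsHanner (k + l)
        (convexHull ℝ ({z | ∃ x ∈ H₁, z = pair x 0} ∪ {z | ∃ y ∈ H₂, z = pair 0 y}))

end Vale.Agent.P248Z.Han
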