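import Vale.Agent.P248Z.Han.Vol

/-!
# P248: linear images of Hanner polytopes
-/

open MeasureTheory Set WithLp Pointwise

namespace Vale.Agent.P248Z.Han

open Vale.Agent.P248Z.Geo

variable {k l n : ℕ}

/-- The segment `[-a, a]` in dimension one. -/
def segB (a : ℝ) : Set (EuclideanSpace ℝ (Fin 1)) := {x | x 0 ∈ Set.Icc (-a) a}

theorem norm_one (x : EuclideanSpace ℝ (Fin 1)) : ‖x‖ = |x 0| := by
  rw [EuclideanSpace.norm_eq, Fin.sum_univ_one, Real.norm_eq_abs, Real.sqrt_sq (abs_nonneg _)]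

theorem segB_eq (a : ℝ) : segB a = Metric.closedBall 0 a := by
  ext x
  rw [mem_closedBall_zero_iff, norm_one, abs_le]
  rfl

theorem symBody_segB {a : ℝ} (ha : 0 < a) : SymBody (segB a) := by
  rw [segB_eq]
  refine ⟨isCompact_closedBall _ _, convex_closedBall _ _, ⟨0, ?_⟩, fun x hx => ?_⟩
  · exact mem_interior_iff_mem_nhds.2 (Metric.closedBall_mem_nhds _ ha)
  · rwa [mem_closedBall_zero_iff, norm_neg, ← mem_closedBall_zero_iff]

theorem volume_segB (a : ℝ) : volume (segB a) = ENNReal.ofReal (2 * a) := by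
  have hm : MeasurableSet (segB a) := by
    rw [segB_eq]
    exact measurableSet_closedBall
  rw [← volume_preimage_toLp hm]
  have : (toLp 2 ⁻¹' segB a : Set (Fin 1 → ℝ)) = Set.pi univ fun _ => Icc (-a) a := by
    ext x
    rw [mem_univ_pi, Fin.forall_fin_one]
    rfl
  rw [this, volume_pi_pi]
  simp [two_mul]

theorem polE_segB {a : ℝ} (ha : 0 < a) : polE (segB a) = segB a⁻¹ := by
  ext y
  have hi : ∀ x : EuclideanSpace ℝ (Fin 1), inner ℝ y x = y 0 * x 0 := fun x => by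
    simp [PiLp.inner_apply, mul_comm]
  constructor
  · intro h
    have h1 := h (toLp 2 fun _ => a) ⟨by simpa using ha.le, le_rfl⟩
    have h2 := h (toLp 2 fun _ => -a) ⟨le_rfl, by simpa using ha.le⟩
    rw [hi] at h1 h2
    simp only at h1 h2
    constructor
    · rw [neg_le, ← one_div, le_div_iff₀ ha]
      linarith
    · rwa [← one_div, le_div_iff₀ ha]
  · intro h x hx
    rw [hi]
    have h1 : |y 0| ≤ a⁻¹ := abs_le.2 h
    have h2 : |x 0| ≤ a := abs_le.2 hx
    calc y 0 * x 0 ≤ |y 0| * |x 0| := by rw [← abs_mul]; exact le_abs_self _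
      _ ≤ a⁻¹ * a := mul_le_mul h1 h2 (abs_nonneg _) (inv_nonneg.2 ha.le)
      _ = 1 := inv_mul_cancel₀ ha.ne'

theorem IsHanner.spec {H : Set (EuclideanSpace ℝ (Fin n))} (h : IsHanner n H) :
    SymBody H ∧ vp H * (n.factorial : ENNReal) = 4 ^ n := by
  induction h with
  | @seg a ha =>
    refine ⟨symBody_segB ha, ?_⟩
    change vp (segB a) * _ = _
    rw [vp, polE_segB ha, volume_segB, volume_segB, ← ENNReal.ofReal_mul (by positivity)]
    have : 2 * a * (2 * a⁻¹) = 4 := by field_simp; norm_num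
    rw [this]
    simp
  | prod _ _ h1 h2 =>
    exact ⟨symBody_prodB h1.1 h2.1, (vp_prodB h1.1 h2.1).trans (by rw [h1.2, h2.2, pow_add])⟩
  | hull _ _ h1 h2 =>
    exact ⟨symBody_hullB h1.1 h2.1, (vp_hullB h1.1 h2.1).trans (by rw [h1.2, h2.2, pow_add])⟩

theorem det_adjoint (T : EuclideanSpace ℝ (Fin n) →ₗ[ℝ] EuclideanSpace ℝ (Fin n)) :
    LinearMap.det (LinearMap.adjoint T) = LinearMap.det T := by
  let v := EuclideanSpace.basisFun (Fin n) ℝ
  rw [← LinearMap.det_toMatrix v.toBasis, LinearMap.toMatrix_adjoint, Matrix.det_conjTranspose,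
    star_trivial, LinearMap.det_toMatrix]

theorem vp_image (T : EuclideanSpace ℝ (Fin n) ≃ₗ[ℝ] EuclideanSpace ℝ (Fin n))
    (K : Set (EuclideanSpace ℝ (Fin n))) : vp (T '' K) = vp K := by
  have hd : LinearMap.det T.toLinearMap ≠ 0 := (LinearEquiv.isUnit_det' T).ne_zero
  have e : polE (T '' K) = LinearMap.adjoint T.toLinearMap ⁻¹' polE K := by
    ext y
    simp only [polE, mem_ofPred_eq, mem_preimage, forall_mem_image, LinearMap.adjoint_inner_left,
      LinearEquiv.coe_coe]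
  have e2 := Measure.addHaar_image_linearMap volume T.toLinearMap K
  rw [LinearEquiv.coe_coe] at e2
  rw [vp, vp, e, e2, Measure.addHaar_preimage_linearMap _ (by rwa [det_adjoint]), det_adjoint,
    mul_mul_mul_comm, ← ENNReal.ofReal_mul (abs_nonneg _), ← abs_mul, mul_inv_cancel₀ hd]
  simp

/-- The converse part of the equality case. -/
theorem IsHanner.volume_mul {H : Set (EuclideanSpace ℝ (Fin n))} (h : IsHanner n H)
    (T : EuclideanSpace ℝ (Fin n) ≃ₗ[ℝ] EuclideanSpace ℝ (Fin n)) :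
    volume (T '' H) * volume (polE (T '' H)) = ENNReal.ofReal (4 ^ n / n.factorial) := by
  change vp (T '' H) = _
  have h0 : (n.factorial : ENNReal) ≠ 0 := by exact_mod_cast n.factorial_ne_zero
  rw [vp_image, ENNReal.ofReal_div_of_pos (by positivity), ENNReal.ofReal_pow (by norm_num),
    ENNReal.ofReal_natCast, ENNReal.eq_div_iff h0 (ENNReal.natCast_ne_top _), mul_comm, h.spec.2]
  simp

section like

variable {V : Type*} [AddCommGroup V] [Module ℝ V]

/-- Injective linear images of Hanner polytopes in a fixed ambient space. -/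
def HLike (K : Set V) : Prop :=
  ∃ (m : ℕ) (H : Set (EuclideanSpace ℝ (Fin m))) (T : EuclideanSpace ℝ (Fin m) →ₗ[ℝ] V),
    IsHanner m H ∧ Function.Injective T ∧ K = T '' H

theorem IsHanner.span_eq_top {H : Set (EuclideanSpace ℝ (Fin n))} (h : IsHanner n H) :
    Submodule.span ℝ H = ⊤ :=
  Submodule.eq_top_of_nonempty_interior' _ (h.spec.1.int.mono (interior_mono Submodule.subset_span))

theorem hlike_seg (v : V) (hv : v ≠ 0) : HLike (segment ℝ (-v) v) := by
  let T : EuclideanSpace ℝ (Fin 1) →ₗ[ℝ] V :=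
    (LinearMap.toSpanSingleton ℝ V v).comp (EuclideanSpace.projₗ (0 : Fin 1))
  have hT : ∀ x, T x = x 0 • v := fun x => rfl
  refine ⟨1, _, T, IsHanner.seg one_pos, ?_, ?_⟩
  · intro x y e
    rw [hT, hT] at e
    ext i
    rw [Subsingleton.elim i 0]
    exact smul_left_injective ℝ hv e
  · ext w
    constructor
    · rintro ⟨a, b, ha, hb, hab, rfl⟩
      refine ⟨toLp 2 fun _ => b - a, ⟨by simp only; linarith, by simp only; linarith⟩, ?_⟩
      rw [hT, sub_smul, smul_neg]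
      abel
    · rintro ⟨x, hx, rfl⟩
      refine ⟨(1 - x 0) / 2, (1 + x 0) / 2, by linarith [hx.2], by linarith [hx.1], by ring, ?_⟩
      rw [hT, smul_neg, ← neg_smul, ← add_smul]
      congr 1
      ring

theorem coprod_injective {H₁ : Set (EuclideanSpace ℝ (Fin k))} {H₂ : Set (EuclideanSpace ℝ (Fin l))}
    {T₁ : EuclideanSpace ℝ (Fin k) →ₗ[ℝ] V} {T₂ : EuclideanSpace ℝ (Fin l) →ₗ[ℝ] V}
    (h1 : IsHanner k H₁) (h2 : IsHanner l H₂) (i1 : Function.Injective T₁)
    (i2 : Function.Injective T₂)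
    (hd : Disjoint (Submodule.span ℝ (T₁ '' H₁)) (Submodule.span ℝ (T₂ '' H₂))) :
    Function.Injective ((T₁.coprod T₂).comp (pairL k l).symm.toLinearMap) := by
  rw [Submodule.span_image, Submodule.span_image, h1.span_eq_top, h2.span_eq_top,
    Submodule.map_top, Submodule.map_top] at hd
  rw [LinearMap.coe_comp]
  refine Function.Injective.comp ?_ (pairL k l).symm.injective
  rw [← LinearMap.ker_eq_bot, LinearMap.ker_coprod_of_disjoint_range _ _ hd,
    LinearMap.ker_eq_bot.2 i1, LinearMap.ker_eq_bot.2 i2, Submodule.prod_bot]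

theorem hlike_prod (K₁ K₂ : Set V) (h1 : HLike K₁) (h2 : HLike K₂)
    (hd : Disjoint (Submodule.span ℝ K₁) (Submodule.span ℝ K₂)) : HLike (K₁ + K₂) := by
  obtain ⟨k, H₁, T₁, h1, i1, rfl⟩ := h1
  obtain ⟨l, H₂, T₂, h2, i2, rfl⟩ := h2
  refine ⟨k + l, prodB H₁ H₂, _, h1.prod h2, coprod_injective h1 h2 i1 i2 hd, ?_⟩
  rw [prodB_eq_image, image_image]
  ext w
  constructor
  · rintro ⟨_, ⟨x, hx, rfl⟩, _, ⟨y, hy, rfl⟩, rfl⟩
    exact ⟨(x, y), ⟨hx, hy⟩, by simp⟩
  · rintro ⟨p, hp, rfl⟩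
    exact ⟨_, ⟨p.1, hp.1, rfl⟩, _, ⟨p.2, hp.2, rfl⟩, by simp⟩

theorem hlike_hull (K₁ K₂ : Set V) (h1 : HLike K₁) (h2 : HLike K₂)
    (hd : Disjoint (Submodule.span ℝ K₁) (Submodule.span ℝ K₂)) :
    HLike (convexHull ℝ (K₁ ∪ K₂)) := by
  obtain ⟨k, H₁, T₁, h1, i1, rfl⟩ := h1
  obtain ⟨l, H₂, T₂, h2, i2, rfl⟩ := h2
  refine ⟨k + l, hullB H₁ H₂, _, h1.hull h2, coprod_injective h1 h2 i1 i2 hd, ?_⟩
  rw [hullB_eq_image, image_image]
  simp only [LinearMap.comp_apply, LinearEquiv.coe_coe, LinearEquiv.symm_apply_apply]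
  rw [LinearMap.image_convexHull, image_union, image_image, image_image]
  simp

end like

theorem HLike.exists_equiv {K : Set (EuclideanSpace ℝ (Fin n))} (h : HLike K)
    (hK : (interior K).Nonempty) :
    ∃ (H : Set (EuclideanSpace ℝ (Fin n)))
      (T : EuclideanSpace ℝ (Fin n) ≃ₗ[ℝ] EuclideanSpace ℝ (Fin n)), IsHanner n H ∧ K = T '' H := by
  obtain ⟨m, H, T, hH, hT, rfl⟩ := h
  have hs : Function.Surjective T := by
    rw [← LinearMap.range_eq_top]
    exact Submodule.eq_top_of_nonempty_interior' _ (hK.mono (interior_mono (image_subset_range _ _)))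
  have hm : m = n := by
    simpa using (LinearEquiv.ofBijective T ⟨hT, hs⟩).finrank_eq
  subst hm
  exact ⟨H, LinearEquiv.ofBijective T ⟨hT, hs⟩, hH, rfl⟩

end Vale.Agent.P248Z.Han
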