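import Vale.Agent.P248Z.Han.Defs
import Vale.Agent.P248Z.Geo.Main

/-!
# P248: pairs of points, products and hulls of symmetric convex bodies
-/

open MeasureTheory Set WithLp

namespace Vale.Agent.P248Z.Han

open Vale.Agent.P248Z.Geo

variable {k l : ℕ}

/-- `pair` as a linear equivalence. -/
def pairL (k l : ℕ) : (EuclideanSpace ℝ (Fin k) × EuclideanSpace ℝ (Fin l)) ≃ₗ[ℝ]
    EuclideanSpace ℝ (Fin (k + l)) where
  toFun p := pair p.1 p.2
  invFun z := (toLp 2 fun i => z (Fin.castAdd l i), toLp 2 fun j => z (Fin.natAdd k j))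
  map_add' p q := by
    ext i
    refine Fin.addCases (fun i => ?_) (fun j => ?_) i <;> simp [pair]
  map_smul' c p := by
    ext i
    refine Fin.addCases (fun i => ?_) (fun j => ?_) i <;> simp [pair]
  left_inv p := by
    ext i <;> simp [pair]
  right_inv z := by
    ext i
    refine Fin.addCases (fun i => ?_) (fun j => ?_) i <;> simp [pair]

theorem pairL_apply (x : EuclideanSpace ℝ (Fin k)) (y : EuclideanSpace ℝ (Fin l)) :
    pairL k l (x, y) = pair x y := rfl

theorem exists_pair (z : EuclideanSpace ℝ (Fin (k + l))) : ∃ x y, z = pair x y :=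
  ⟨_, _, ((pairL k l).apply_symm_apply z).symm⟩

theorem inner_pair (x u : EuclideanSpace ℝ (Fin k)) (y v : EuclideanSpace ℝ (Fin l)) :
    inner ℝ (pair x y) (pair u v) = inner ℝ x u + inner ℝ y v := by
  simp [PiLp.inner_apply, Fin.sum_univ_add, pair]

theorem measurePreserving_pairL (k l : ℕ) : MeasurePreserving (pairL k l) := by
  have h1 := (PiLp.volume_preserving_ofLp (Fin k)).prod (PiLp.volume_preserving_ofLp (Fin l))
  have h2 := volume_measurePreserving_sumPiEquivProdPi_symm (fun _ : Fin k ⊕ Fin l => ℝ)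
  have h3 := volume_measurePreserving_piCongrLeft (fun _ : Fin (k + l) => ℝ) finSumFinEquiv
  have h4 := PiLp.volume_preserving_toLp (Fin (k + l))
  have h := h4.comp (h3.comp (h2.comp h1))
  rw [Measure.volume_eq_prod]
  convert h using 1
  funext p
  ext i
  refine Fin.addCases (fun i => ?_) (fun j => ?_) i
  · have := MeasurableEquiv.piCongrLeft_apply_apply (β := fun _ : Fin (k + l) => ℝ)
      finSumFinEquiv ((MeasurableEquiv.sumPiEquivProdPi fun _ : Fin k ⊕ Fin l => ℝ).symm
        (ofLp p.1, ofLp p.2)) (Sum.inl i)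
    rw [finSumFinEquiv_apply_left] at this
    refine Eq.trans ?_ this.symm
    simp [pairL, pair, MeasurableEquiv.sumPiEquivProdPi]
  · have := MeasurableEquiv.piCongrLeft_apply_apply (β := fun _ : Fin (k + l) => ℝ)
      finSumFinEquiv ((MeasurableEquiv.sumPiEquivProdPi fun _ : Fin k ⊕ Fin l => ℝ).symm
        (ofLp p.1, ofLp p.2)) (Sum.inr j)
    rw [finSumFinEquiv_apply_right] at this
    refine Eq.trans ?_ this.symm
    simp [pairL, pair, MeasurableEquiv.sumPiEquivProdPi]

/-- The product of two sets. -/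
def prodB (A : Set (EuclideanSpace ℝ (Fin k))) (B : Set (EuclideanSpace ℝ (Fin l))) :
    Set (EuclideanSpace ℝ (Fin (k + l))) := {z | ∃ x ∈ A, ∃ y ∈ B, z = pair x y}

/-- The hull of two sets in complementary coordinate subspaces. -/
def hullB (A : Set (EuclideanSpace ℝ (Fin k))) (B : Set (EuclideanSpace ℝ (Fin l))) :
    Set (EuclideanSpace ℝ (Fin (k + l))) :=
  convexHull ℝ ({z | ∃ x ∈ A, z = pair x 0} ∪ {z | ∃ y ∈ B, z = pair 0 y})

variable {A : Set (EuclideanSpace ℝ (Fin k))} {B : Set (EuclideanSpace ℝ (Fin l))}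

theorem prodB_eq_image (A : Set (EuclideanSpace ℝ (Fin k))) (B : Set (EuclideanSpace ℝ (Fin l))) :
    prodB A B = pairL k l '' (A ×ˢ B) := by
  ext z
  constructor
  · rintro ⟨x, hx, y, hy, rfl⟩
    exact ⟨(x, y), ⟨hx, hy⟩, rfl⟩
  · rintro ⟨p, hp, rfl⟩
    exact ⟨p.1, hp.1, p.2, hp.2, rfl⟩

theorem hullB_eq_image (A : Set (EuclideanSpace ℝ (Fin k))) (B : Set (EuclideanSpace ℝ (Fin l))) :
    hullB A B = pairL k l '' convexHull ℝ
      (LinearMap.inl ℝ _ _ '' A ∪ LinearMap.inr ℝ _ _ '' B) := by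
  have := (pairL k l).toLinearMap.image_convexHull
    (LinearMap.inl ℝ _ _ '' A ∪ LinearMap.inr ℝ _ _ '' B)
  rw [LinearEquiv.coe_coe] at this
  rw [this, image_union, image_image, image_image, hullB]
  congr 2
  · ext z
    exact ⟨fun ⟨x, hx, e⟩ => ⟨x, hx, e.symm⟩, fun ⟨x, hx, e⟩ => ⟨x, hx, e.symm⟩⟩
  · ext z
    exact ⟨fun ⟨x, hx, e⟩ => ⟨x, hx, e.symm⟩, fun ⟨x, hx, e⟩ => ⟨x, hx, e.symm⟩⟩

theorem pair_mem_prodB {x : EuclideanSpace ℝ (Fin k)} {y : EuclideanSpace ℝ (Fin l)} :
    pair x y ∈ prodB A B ↔ x ∈ A ∧ y ∈ B := by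
  rw [prodB_eq_image, ← pairL_apply, (pairL k l).injective.mem_set_image, mem_prod]

theorem volume_image_pairL {S : Set (EuclideanSpace ℝ (Fin k) × EuclideanSpace ℝ (Fin l))}
    (hS : MeasurableSet S) : volume (pairL k l '' S) = volume S := by
  have hm : MeasurableSet (pairL k l '' S) :=
    (pairL k l).toContinuousLinearEquiv.toHomeomorph.measurableEmbedding.measurableSet_image.2 hS
  rw [← (measurePreserving_pairL k l).measure_preimage hm.nullMeasurableSet,
    preimage_image_eq _ (pairL k l).injective]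

theorem volume_prodB (hA : MeasurableSet A) (hB : MeasurableSet B) :
    volume (prodB A B) = volume A * volume B := by
  rw [prodB_eq_image, volume_image_pairL (hA.prod hB), Measure.volume_eq_prod, Measure.prod_prod]

theorem polE_hullB (A : Set (EuclideanSpace ℝ (Fin k))) (B : Set (EuclideanSpace ℝ (Fin l))) :
    polE (hullB A B) = prodB (polE A) (polE B) := by
  ext z
  obtain ⟨u, v, rfl⟩ := exists_pair z
  rw [pair_mem_prodB]
  constructor
  · intro h
    refine ⟨fun x hx => ?_, fun y hy => ?_⟩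
    · have := h (pair x 0) (subset_convexHull ℝ _ (Or.inl ⟨x, hx, rfl⟩))
      rwa [inner_pair, inner_zero_right, add_zero] at this
    · have := h (pair 0 y) (subset_convexHull ℝ _ (Or.inr ⟨y, hy, rfl⟩))
      rwa [inner_pair, inner_zero_right, zero_add] at this
  · rintro ⟨hu, hv⟩
    have hc : Convex ℝ {w : EuclideanSpace ℝ (Fin (k + l)) | inner ℝ (pair u v) w ≤ 1} :=
      convex_halfSpace_le (innerₛₗ ℝ (pair u v)).isLinear 1
    refine fun w hw => convexHull_min ?_ hc hw
    rintro _ (⟨x, hx, rfl⟩ | ⟨y, hy, rfl⟩)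
    · rw [mem_ofPred_eq, inner_pair, inner_zero_right, add_zero]
      exact hu x hx
    · rw [mem_ofPred_eq, inner_pair, inner_zero_right, zero_add]
      exact hv y hy

theorem symBody_image {n : ℕ} {V : Type*} [NormedAddCommGroup V] [NormedSpace ℝ V]
    [FiniteDimensional ℝ V] (T : V ≃ₗ[ℝ] EuclideanSpace ℝ (Fin n)) {S : Set V} (h1 : IsCompact S)
    (h2 : Convex ℝ S) (h3 : (interior S).Nonempty) (h4 : ∀ x ∈ S, -x ∈ S) : SymBody (T '' S) := by
  refine ⟨h1.image T.toContinuousLinearEquiv.continuous, h2.linear_image T.toLinearMap, ?_, ?_⟩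
  · have := T.toContinuousLinearEquiv.toHomeomorph.image_interior S
    rw [show (T '' S) = T.toContinuousLinearEquiv.toHomeomorph '' S from rfl, ← this]
    exact h3.image _
  · rintro _ ⟨x, hx, rfl⟩
    exact ⟨-x, h4 x hx, map_neg _ _⟩

theorem symBody_prodB (hA : SymBody A) (hB : SymBody B) : SymBody (prodB A B) := by
  rw [prodB_eq_image]
  refine symBody_image _ (hA.compact.prod hB.compact) (hA.convex.prod hB.convex) ?_
    fun p hp => ⟨hA.symm _ hp.1, hB.symm _ hp.2⟩
  rw [interior_prod_eq]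
  exact hA.int.prod hB.int

end Vale.Agent.P248Z.Han
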