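import Vale.Agent.P248Z.Han.Pair
import Mathlib.Analysis.Convex.Gauge
import Mathlib.Analysis.InnerProductSpace.Adjoint

/-!
# P248: the volume product of Hanner polytopes and of their linear images
-/

open MeasureTheory Set WithLp Pointwise

namespace Vale.Agent.P248Z.Han

open Vale.Agent.P248Z.Geo

variable {k l n : ℕ}

theorem volume_le_one {g : EuclideanSpace ℝ (Fin n) → ℝ} (h1 : g 0 = 0)
    (h2 : ∀ x, g (-x) = g x) (h3 : ∀ x y, g (x + y) ≤ g x + g y) (h4 : ∀ {x}, g x = 0 → x = 0)
    (h5 : ∀ (r : ℝ) x, g (r • x) ≤ |r| * g x) :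
    volume {x | g x ≤ 1} = ENNReal.ofReal ((∫ x, Real.exp (-g x)) / n.factorial) := by
  have e1 := measure_lt_one_eq_integral_div_gamma volume h1 h2 h3 h4 h5 (p := 1) one_pos
  simp only [Real.rpow_one, div_one, finrank_euclideanSpace, Fintype.card_fin,
    Real.Gamma_nat_eq_factorial] at e1
  rw [← e1]
  rcases subsingleton_or_nontrivial (EuclideanSpace ℝ (Fin n)) with h | h
  · congr 1
    ext x
    simp [Subsingleton.elim x 0, h1]
  · exact measure_le_eq_lt volume h1 h2 h3 h4 h5 1

section gauge

variable {K : Set (EuclideanSpace ℝ (Fin n))}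

theorem nhds_zero (h : SymBody K) : K ∈ nhds (0 : EuclideanSpace ℝ (Fin n)) :=
  mem_interior_iff_mem_nhds.1 h.zero_mem_interior

theorem gauge_le_one_iff (h : SymBody K) {x : EuclideanSpace ℝ (Fin n)} :
    gauge K x ≤ 1 ↔ x ∈ K := by
  rw [gauge_le_one_iff_mem_closure h.convex (nhds_zero h), h.compact.isClosed.closure_eq]

theorem gauge_add (h : SymBody K) (x y : EuclideanSpace ℝ (Fin n)) :
    gauge K (x + y) ≤ gauge K x + gauge K y :=
  gauge_add_le h.convex (absorbent_nhds_zero (nhds_zero h)) x y

theorem eq_zero_of_gauge (h : SymBody K) {x : EuclideanSpace ℝ (Fin n)} (hx : gauge K x = 0) :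
    x = 0 :=
  (gauge_eq_zero (absorbent_nhds_zero (nhds_zero h))
    ((NormedSpace.isVonNBounded_iff ℝ).2 h.compact.isBounded)).1 hx

theorem gauge_smul_abs (h : SymBody K) (r : ℝ) (x : EuclideanSpace ℝ (Fin n)) :
    gauge K (r • x) = |r| * gauge K x := by
  rcases le_total 0 r with hr | hr
  · rw [gauge_smul_of_nonneg hr, abs_of_nonneg hr, smul_eq_mul]
  · rw [← gauge_neg h.symm, ← neg_smul, gauge_smul_of_nonneg (neg_nonneg.2 hr), abs_of_nonpos hr,
      smul_eq_mul]

theorem exists_eq_gauge_smul (h : SymBody K) (x : EuclideanSpace ℝ (Fin n)) :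
    ∃ x' ∈ K, x = gauge K x • x' := by
  rcases eq_or_ne (gauge K x) 0 with e | e
  · exact ⟨0, interior_subset h.zero_mem_interior, by rw [smul_zero, eq_zero_of_gauge h e]⟩
  · refine ⟨(gauge K x)⁻¹ • x, ?_, by rw [smul_inv_smul₀ e]⟩
    rw [← gauge_le_one_iff h, gauge_smul_abs h, abs_of_nonneg (inv_nonneg.2 (gauge_nonneg x)),
      inv_mul_cancel₀ e]

theorem volume_eq_integral (h : SymBody K) :
    volume K = ENNReal.ofReal ((∫ x, Real.exp (-gauge K x)) / n.factorial) := by
  rw [← volume_le_one gauge_zero (gauge_neg h.symm) (gauge_add h) (eq_zero_of_gauge h)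
    fun r x => (gauge_smul_abs h r x).le]
  congr 1
  ext x
  exact (gauge_le_one_iff h).symm

end gauge

variable {A : Set (EuclideanSpace ℝ (Fin k))} {B : Set (EuclideanSpace ℝ (Fin l))}

theorem hullB_eq (hA : SymBody A) (hB : SymBody B) : hullB A B =
    {z | gauge A ((pairL k l).symm z).1 + gauge B ((pairL k l).symm z).2 ≤ 1} := by
  refine Subset.antisymm (convexHull_min ?_ ?_) fun z hz => ?_
  · rintro _ (⟨x, hx, rfl⟩ | ⟨y, hy, rfl⟩)
    · rw [mem_ofPred_eq, ← pairL_apply, LinearEquiv.symm_apply_apply, gauge_zero, add_zero]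
      exact gauge_le_one_of_mem hx
    · rw [mem_ofPred_eq, ← pairL_apply, LinearEquiv.symm_apply_apply, gauge_zero, zero_add]
      exact gauge_le_one_of_mem hy
  · intro z hz w hw a b ha hb hab
    rw [mem_ofPred_eq] at hz hw ⊢
    rw [map_add, map_smul, map_smul, Prod.fst_add, Prod.snd_add, Prod.smul_fst, Prod.smul_fst,
      Prod.smul_snd, Prod.smul_snd]
    have e1 := gauge_add hA (a • ((pairL k l).symm z).1) (b • ((pairL k l).symm w).1)
    have e2 := gauge_add hB (a • ((pairL k l).symm z).2) (b • ((pairL k l).symm w).2)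
    rw [gauge_smul_abs hA, gauge_smul_abs hA, abs_of_nonneg ha, abs_of_nonneg hb] at e1
    rw [gauge_smul_abs hB, gauge_smul_abs hB, abs_of_nonneg ha, abs_of_nonneg hb] at e2
    nlinarith
  · obtain ⟨x, y, rfl⟩ := exists_pair z
    rw [mem_ofPred_eq, ← pairL_apply, LinearEquiv.symm_apply_apply] at hz
    obtain ⟨x', hx', ex⟩ := exists_eq_gauge_smul hA x
    obtain ⟨y', hy', ey⟩ := exists_eq_gauge_smul hB y
    have h1 : pair x' 0 ∈ hullB A B := subset_convexHull ℝ _ (Or.inl ⟨x', hx', rfl⟩)
    have h2 : pair 0 y' ∈ hullB A B := subset_convexHull ℝ _ (Or.inr ⟨y', hy', rfl⟩)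
    have h0 : (0 : EuclideanSpace ℝ (Fin (k + l))) ∈ hullB A B :=
      subset_convexHull ℝ _ (Or.inl ⟨0, interior_subset hA.zero_mem_interior,
        (map_zero (pairL k l)).symm⟩)
    have := sum_smul_mem (n := 2) (convex_convexHull ℝ _) h0 (β := ![pair x' 0, pair 0 y'])
      (c := ![gauge A x, gauge B y]) (Fin.forall_fin_two.2 ⟨h1, h2⟩)
      (Fin.forall_fin_two.2 ⟨gauge_nonneg _, gauge_nonneg _⟩) (by simpa using hz)
    have e : pair x y = gauge A x • pair x' 0 + gauge B y • pair 0 y' := by
      rw [← pairL_apply, ← pairL_apply, ← pairL_apply, ← map_smul, ← map_smul, ← map_add]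
      congr 1
      ext1
      · simpa using ex
      · simpa using ey
    rw [e]
    simpa [Fin.sum_univ_two, hullB] using this

theorem symBody_hullB (hA : SymBody A) (hB : SymBody B) : SymBody (hullB A B) := by
  have hc : Continuous fun z => gauge A ((pairL k l).symm z).1 + gauge B ((pairL k l).symm z).2 := by
    have := (pairL k l).symm.toContinuousLinearEquiv.continuous
    exact ((continuous_gauge hA.convex (nhds_zero hA)).comp this.fst).add
      ((continuous_gauge hB.convex (nhds_zero hB)).comp this.snd)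
  refine ⟨?_, convex_convexHull ℝ _, ⟨0, ?_⟩, ?_⟩
  · refine (symBody_prodB hA hB).compact.of_isClosed_subset ?_ ?_
    · rw [hullB_eq hA hB]
      exact isClosed_le hc continuous_const
    · rw [hullB_eq hA hB]
      intro z hz
      obtain ⟨x, y, rfl⟩ := exists_pair z
      rw [mem_ofPred_eq, ← pairL_apply, LinearEquiv.symm_apply_apply] at hz
      rw [pair_mem_prodB, ← gauge_le_one_iff hA, ← gauge_le_one_iff hB]
      constructor <;> linarith [gauge_nonneg (s := A) x, gauge_nonneg (s := B) y]
  · rw [hullB_eq hA hB, mem_interior_iff_mem_nhds]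
    refine Filter.mem_of_superset ((isOpen_lt hc (continuous_const (y := 1))).mem_nhds ?_)
      fun z hz => ?_
    · simp [gauge_zero]
    · rw [mem_ofPred_eq] at hz ⊢
      exact hz.le
  · rw [hullB_eq hA hB]
    intro z hz
    rw [mem_ofPred_eq, map_neg, Prod.fst_neg, Prod.snd_neg, gauge_neg hA.symm, gauge_neg hB.symm]
    exact hz

theorem volume_hullB (hA : SymBody A) (hB : SymBody B) : volume (hullB A B) =
    ENNReal.ofReal ((∫ x, Real.exp (-gauge A x)) * (∫ y, Real.exp (-gauge B y)) /
      (k + l).factorial) := by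
  rw [hullB_eq hA hB, volume_le_one]
  · congr 2
    rw [← (measurePreserving_pairL k l).integral_comp
      (pairL k l).toContinuousLinearEquiv.toHomeomorph.measurableEmbedding,
      ← integral_prod_mul, Measure.volume_eq_prod]
    congr 1
    funext p
    rw [LinearEquiv.symm_apply_apply, neg_add, Real.exp_add]
  · simp [gauge_zero]
  · intro z
    rw [map_neg, Prod.fst_neg, Prod.snd_neg, gauge_neg hA.symm, gauge_neg hB.symm]
  · intro z w
    rw [map_add, Prod.fst_add, Prod.snd_add]
    linarith [gauge_add hA ((pairL k l).symm z).1 ((pairL k l).symm w).1,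
      gauge_add hB ((pairL k l).symm z).2 ((pairL k l).symm w).2]
  · intro z hz
    have h1 := gauge_nonneg (s := A) ((pairL k l).symm z).1
    have h2 := gauge_nonneg (s := B) ((pairL k l).symm z).2
    rw [← (pairL k l).symm.map_eq_zero_iff]
    exact Prod.ext (eq_zero_of_gauge hA (by linarith)) (eq_zero_of_gauge hB (by linarith))
  · intro r z
    rw [map_smul, Prod.smul_fst, Prod.smul_snd, gauge_smul_abs hA, gauge_smul_abs hB, mul_add]

theorem polE_prodB (hA : SymBody A) (hB : SymBody B) :
    polE (prodB A B) = hullB (polE A) (polE B) := by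
  conv_lhs => rw [← hA.polE_polE, ← hB.polE_polE, ← polE_hullB]
  exact (symBody_hullB hA.polE hB.polE).polE_polE

/-- The volume product of a symmetric convex body. -/
noncomputable def vp (K : Set (EuclideanSpace ℝ (Fin n))) : ENNReal := volume K * volume (polE K)

theorem volume_hullB_mul (hA : SymBody A) (hB : SymBody B) :
    volume (hullB A B) * ((k + l).factorial : ENNReal) =
      (volume A * (k.factorial : ENNReal)) * (volume B * (l.factorial : ENNReal)) := by
  have ha : 0 ≤ ∫ x, Real.exp (-gauge A x) := integral_nonneg fun _ => (Real.exp_pos _).le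
  have hb : 0 ≤ ∫ x, Real.exp (-gauge B x) := integral_nonneg fun _ => (Real.exp_pos _).le
  have key : ∀ (a : ℝ) (m : ℕ),
      ENNReal.ofReal (a / m.factorial) * (m.factorial : ENNReal) = ENNReal.ofReal a := by
    intro a m
    rw [← ENNReal.ofReal_natCast, ← ENNReal.ofReal_mul' (by positivity),
      div_mul_cancel₀ _ (by positivity)]
  rw [volume_hullB hA hB, volume_eq_integral hA, volume_eq_integral hB, key, key, key,
    ENNReal.ofReal_mul ha]

theorem vp_prodB (hA : SymBody A) (hB : SymBody B) :
    vp (prodB A B) * ((k + l).factorial : ENNReal) =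
      (vp A * (k.factorial : ENNReal)) * (vp B * (l.factorial : ENNReal)) := by
  rw [vp, vp, vp, polE_prodB hA hB, volume_prodB hA.compact.measurableSet hB.compact.measurableSet,
    mul_assoc, volume_hullB_mul hA.polE hB.polE]
  ring

theorem vp_hullB (hA : SymBody A) (hB : SymBody B) :
    vp (hullB A B) * ((k + l).factorial : ENNReal) =
      (vp A * (k.factorial : ENNReal)) * (vp B * (l.factorial : ENNReal)) := by
  rw [vp, vp, vp, polE_hullB, volume_prodB hA.polE.compact.measurableSet
    hB.polE.compact.measurableSet, mul_right_comm, volume_hullB_mul hA hB]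
  ring

end Vale.Agent.P248Z.Han
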